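import Vale.Agent.P226.Full.Final

open MeasureTheory ProbabilityTheory Real

/-- **The Gaussian propeller conjecture** (Khot-Naor), for all dimensions `d` and all numbers of
cells `k`: every measurable family of cells of `ℝ^d` that is pairwise disjoint up to null sets (in
particular every measurable partition) satisfies `∑ |∫_{A_i} x dγ|² ≤ 9/(8π)`; and for `d ≥ 2`,
`k ≥ 3`, the value `9/(8π)` is the maximum over measurable partitions into `k` cells. -/
theorem Vale.Agent.Results.P226.Propeller.result :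
    (∀ (d k : ℕ) (A : Fin k → Set (EuclideanSpace ℝ (Fin d))),
      (∀ i, MeasurableSet (A i)) →
      (∀ i j, i ≠ j → stdGaussian (EuclideanSpace ℝ (Fin d)) (A i ∩ A j) = 0) →
      ∑ i, ‖∫ x in A i, x ∂(stdGaussian (EuclideanSpace ℝ (Fin d)))‖ ^ 2 ≤ 9 / (8 * π)) ∧
    (∀ d k : ℕ, 2 ≤ d → 3 ≤ k →
      IsGreatest {F : ℝ | ∃ A : Fin k → Set (EuclideanSpace ℝ (Fin d)),
        (∀ i, MeasurableSet (A i)) ∧
        (∀ i j, i ≠ j → stdGaussian (EuclideanSpace ℝ (Fin d)) (A i ∩ A j) = 0) ∧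
        stdGaussian (EuclideanSpace ℝ (Fin d)) (⋃ i, A i)ᶜ = 0 ∧
        F = ∑ i, ‖∫ x in A i, x ∂(stdGaussian (EuclideanSpace ℝ (Fin d)))‖ ^ 2}
        (9 / (8 * π))) := by
  refine ⟨fun d k A hm hd => Vale.Agent.P226.propeller_upper d k A hm hd, fun d k hd hk => ⟨?_, ?_⟩⟩
  · obtain ⟨A, hm, hdis, hun, hge⟩ := Vale.Agent.P226.propeller_attained d k hd hk
    have hnull : ∀ i j, i ≠ j → stdGaussian (EuclideanSpace ℝ (Fin d)) (A i ∩ A j) = 0 := by
      intro i j hij
      rw [(hdis hij).inter_eq]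
      simp
    refine ⟨A, hm, hnull, by rw [hun]; simp, le_antisymm hge ?_⟩
    exact Vale.Agent.P226.propeller_upper d k A hm hnull
  · rintro F ⟨A, hm, hd', _, rfl⟩
    exact Vale.Agent.P226.propeller_upper d k A hm hd'
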