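import Vale.Agent.P226.SmallCells

open MeasureTheory ProbabilityTheory Real

/-- For all `d` and `k`, every family of `k` measurable, almost everywhere pairwise disjoint cells
of `ℝ^d` (in particular every measurable partition) has propeller functional at most `0.405`;
and at most `9/(8π)` if all cells have Gaussian measure at most `0.14`. -/
theorem Vale.Agent.Results.P226.UniformBound.result (d k : ℕ)
    (A : Fin k → Set (EuclideanSpace ℝ (Fin d)))
    (hm : ∀ i, MeasurableSet (A i))
    (hd : ∀ i j, i ≠ j → stdGaussian (EuclideanSpace ℝ (Fin d)) (A i ∩ A j) = 0) :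
    (∑ i, ‖∫ x in A i, x ∂(stdGaussian (EuclideanSpace ℝ (Fin d)))‖ ^ 2 ≤ 0.405) ∧
    ((∀ i, stdGaussian (EuclideanSpace ℝ (Fin d)) (A i) ≤ ENNReal.ofReal 0.14) →
      ∑ i, ‖∫ x in A i, x ∂(stdGaussian (EuclideanSpace ℝ (Fin d)))‖ ^ 2 ≤ 9 / (8 * π)) := by
  have hd' : Pairwise (fun i j => AEDisjoint (stdGaussian (EuclideanSpace ℝ (Fin d))) (A i) (A j)) :=
    fun i j hij => hd i j hij
  refine ⟨Vale.Agent.P226.uniform_bound A hm hd', fun hs => ?_⟩
  have h1 := Vale.Agent.P226.small_cells A hm hd' (fun i => by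
    have := ENNReal.toReal_mono ENNReal.ofReal_ne_top (hs i)
    rwa [ENNReal.toReal_ofReal (by norm_num)] at this)
  refine h1.trans ?_
  rw [le_div_iff₀ (by positivity)]
  have := Real.pi_lt_d6
  norm_num at this ⊢
  linarith
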